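import Crest.Agent.X212.Plb19.Mod

/-!
# Row 212, PERF-PLUMB (helper19): the quarter turn of a one-holed torus
-/

set_option autoImplicit false
set_option linter.unusedSectionVars false
noncomputable section
open Set Filter Topology Function Complex
open scoped ContDiff Manifold

namespace Crest.Agent.X212.Plb19
open Prf6

/-- congruence modulo `ℤ[i]` -/
def La (z w : ℂ) : Prop := ∃ m n : ℤ, w = z + m + n * I

theorem La.refl (z : ℂ) : La z z := ⟨0, 0, by simp⟩

theorem La.symm {z w : ℂ} : La z w → La w z := fun ⟨m, n, h⟩ =>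
  ⟨-m, -n, by rw [h]; push_cast; ring⟩

theorem La.trans {z w u : ℂ} : La z w → La w u → La z u := fun ⟨m, n, h⟩ ⟨m', n', h'⟩ =>
  ⟨m + m', n + n', by rw [h', h]; push_cast; ring⟩

theorem La.mul_I {z w : ℂ} : La z w → La (I * z) (I * w) := fun ⟨m, n, h⟩ =>
  ⟨-n, m, by rw [h]; push_cast; linear_combination (n : ℂ) * I_mul_I⟩

theorem La.re {z w : ℂ} : La z w → dz w.re = dz z.re := fun ⟨m, n, h⟩ => by
  simp [h, dz_add_int]

theorem La.im {z w : ℂ} : La z w → dz w.im = dz z.im := fun ⟨m, n, h⟩ => by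
  simp [h, dz_add_int]

theorem II (z : ℂ) : I * (I * z) = -z := by rw [← mul_assoc, I_mul_I, neg_one_mul]

theorem II' (z : ℂ) : I * (-I * z) = z := by rw [neg_mul, mul_neg, II, neg_neg]

/-- the plane minus closed squares round the punctures -/
def W (c : ℝ) : Set ℂ := {z | dz z.im < c ∨ dz z.re < c}

theorem isOpen_W (c : ℝ) : IsOpen (W c) :=
  (isOpen_lt (dz_cont.comp continuous_im) continuous_const).union
    (isOpen_lt (dz_cont.comp continuous_re) continuous_const)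

theorem La.mem {c : ℝ} {z w : ℂ} (h : La z w) (hz : z ∈ W c) : w ∈ W c := by
  simpa [W, h.re, h.im] using hz

theorem W_mono {c c' : ℝ} (h : c ≤ c') : W c ⊆ W c' := fun _ hz =>
  hz.imp (fun a => a.trans_le h) fun a => a.trans_le h

theorem W_rot {c : ℝ} {z : ℂ} : I * z ∈ W c ↔ z ∈ W c := by simp [W, dz_neg, or_comm]

/-- the compact fundamental piece -/
def L (c : ℝ) : Set ℂ := bx 0 1 ∩ {z | dz z.im ≤ c ∨ dz z.re ≤ c}

theorem isCompact_L (c : ℝ) : IsCompact (L c) :=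
  (isCompact_bx 0 1).inter_right ((isClosed_le (dz_cont.comp continuous_im) continuous_const).union
    (isClosed_le (dz_cont.comp continuous_re) continuous_const))

theorem L_sub {c c' : ℝ} (h : c < c') : L c ⊆ W c' := fun _ hz =>
  hz.2.imp (fun a => a.trans_lt h) fun a => a.trans_lt h

theorem exists_L {c : ℝ} {z : ℂ} (hz : z ∈ W c) : ∃ w ∈ L c, La z w := by
  have h : La z (z + (-⌊z.re⌋ : ℤ) + (-⌊z.im⌋ : ℤ) * I) := ⟨_, _, rfl⟩
  refine ⟨_, ⟨⟨?_, ?_⟩, (h.mem hz).imp le_of_lt le_of_lt⟩, h⟩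
  · simpa [Int.floor_le, add_comm] using (Int.lt_floor_add_one z.re).le
  · simpa [Int.floor_le, add_comm] using (Int.lt_floor_add_one z.im).le

/-- lattice equivariant, and trivial near the punctures -/
structure Ad (c : ℝ) (h : Equiv.Perm ℂ) : Prop where
  eqv : ∀ z w, La z w ↔ La (h z) (h w)
  fix : ∀ z ∉ W c, La z (h z)

theorem Ad.inv {c : ℝ} {h : Equiv.Perm ℂ} (a : Ad c h) : Ad c h⁻¹ :=
  ⟨fun z w => by simpa using (a.eqv (h⁻¹ z) (h⁻¹ w)).symm, fun z hz =>
    ((a.eqv _ _).2 (by simpa using a.fix z hz)).symm⟩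

theorem Ad.maps {c c' : ℝ} {h : Equiv.Perm ℂ} (a : Ad c h) (hc : c ≤ c') {z : ℂ}
    (hz : z ∈ W c') : h z ∈ W c' := by
  by_contra hn
  exact hn (((a.eqv _ _).2 (a.fix _ fun e => hn (W_mono hc e))).mem hz)

theorem Shr.ad {c : ℝ} {h : ℝ → Equiv.Perm ℂ} {l : ℝ → ℝ} (s : Shr c h l) (t : ℝ) : Ad c (h t) := by
  refine ⟨fun z w => ⟨fun ⟨m, n, e⟩ => ⟨m + n, n, by rw [e, s.per]⟩, fun ⟨m, n, e⟩ =>
    ⟨m - n, n, (h t).injective (by rw [e, s.per]; simp)⟩⟩, fun z hz => ?_⟩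
  obtain ⟨n, e⟩ := s.fix t z (not_lt.1 fun a => hz (Or.inr a)) (not_lt.1 fun a => hz (Or.inl a))
  exact ⟨n, 0, by simp [e]⟩

/-- transplant through the chart `Θ` of the punctured torus -/
def T {M : Type*} (Θ : ℂ → M) (c : ℝ) (h : Equiv.Perm ℂ) : Equiv.Perm M :=
  by classical exact mkP fun x => if H : ∃ z ∈ W c, Θ z = x then Θ (h H.choose) else x

variable {M : Type*} [TopologicalSpace M] [ChartedSpace ℂ M] [IsManifold IC ∞ M] [T2Space M]
  {o : Or M} {U : Set M} {c c₁ : ℝ} {A B Θ : ℂ → M}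

/-- two plumbed annuli and the chart of the punctured torus -/
structure Tc (o : Or M) (U : Set M) (c : ℝ) (A B Θ : ℂ → M) : Prop where
  hA : An o A
  hB : An o B
  rA : range A ⊆ U
  rB : range B ⊆ U
  pos : 0 < c
  hi : c < 1 / 2
  only : ∀ z w : ℂ, |z.im| < c → |w.im| < c → A z = B w → La z (I * w)
  a : ∀ z w : ℂ, |z.im| < c → La z w → Θ w = A z
  b : ∀ z w : ℂ, |z.im| < c → La (I * z) w → Θ w = B z

namespace Tc
variable (X : Tc o U c A B Θ)
include X

theorem swap : Tc o U c B (fun z => A (-z)) fun z => Θ (I * z) where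
  hA := X.hB
  hB := X.hA.neg
  rA := X.rB
  rB := by rintro _ ⟨z, rfl⟩; exact X.rA ⟨_, rfl⟩
  pos := X.pos
  hi := X.hi
  only := fun z w hz hw e => by
    have := (X.only (-w) z (by simpa using hw) hz e.symm).mul_I.mul_I.mul_I.symm
    simpa [II] using this
  a := fun z w hz e => X.b _ _ hz e.mul_I
  b := fun z w hz e => X.a _ _ (by simpa using hz) (by simpa [II] using e.mul_I)

omit X in
theorem rep {z : ℂ} (hz : z ∈ W c) :
    (∃ u : ℂ, |u.im| < c ∧ La u z) ∨ ∃ u : ℂ, |u.im| < c ∧ La (I * u) z := by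
  rcases hz with h | h
  · exact Or.inl ⟨z - round z.im * I, by simpa [dz] using h, 0, round z.im, by simp⟩
  · refine Or.inr ⟨-I * (z - round z.re), ?_, round z.re, 0, by rw [II']; simp⟩
    simpa [dz, abs_sub_comm, neg_add_eq_sub] using h

theorem eq {z w : ℂ} (hz : z ∈ W c) (hw : w ∈ W c) : Θ z = Θ w ↔ La z w := by
  refine ⟨fun e => ?_, fun e => ?_⟩
  · rcases rep hz with ⟨u, u1, u2⟩ | ⟨u, u1, u2⟩ <;> rcases rep hw with ⟨v, v1, v2⟩ | ⟨v, v1, v2⟩
    · rw [X.a _ _ u1 u2, X.a _ _ v1 v2] at e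
      obtain ⟨n, rfl⟩ := (X.hA.2 _ _).1 e
      exact u2.symm.trans (La.trans ⟨n, 0, by simp⟩ v2)
    · rw [X.a _ _ u1 u2, X.b _ _ v1 v2] at e
      exact u2.symm.trans ((X.only _ _ u1 v1 e).trans v2)
    · rw [X.b _ _ u1 u2, X.a _ _ v1 v2] at e
      exact u2.symm.trans ((X.only _ _ v1 u1 e.symm).symm.trans v2)
    · rw [X.b _ _ u1 u2, X.b _ _ v1 v2] at e
      obtain ⟨n, rfl⟩ := (X.hB.2 _ _).1 e
      exact u2.symm.trans (La.trans ⟨0, n, by simp; ring⟩ v2)
  · rcases rep hz with ⟨u, u1, u2⟩ | ⟨u, u1, u2⟩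
    · rw [X.a _ _ u1 u2, X.a _ _ u1 (u2.trans e)]
    · rw [X.b _ _ u1 u2, X.b _ _ u1 (u2.trans e)]

theorem sub {z : ℂ} (hz : z ∈ W c) : Θ z ∈ U := by
  rcases rep hz with ⟨u, u1, u2⟩ | ⟨u, u1, u2⟩
  · rw [X.a _ _ u1 u2]; exact X.rA ⟨_, rfl⟩
  · rw [X.b _ _ u1 u2]; exact X.rB ⟨_, rfl⟩

theorem pm' {z : ℂ} (hz : dz z.im < c) : Pm oC o Θ z := by
  refine ((X.hA.1 _).comp (pm_affine one_ne_zero (-(round z.im * I)) z)).congr ?_
  have h : ∀ᶠ w : ℂ in 𝓝 z, |w.im - round z.im| < c :=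
    ContinuousAt.eventually_lt (by fun_prop) continuousAt_const hz
  filter_upwards [h] with w hw
  exact X.a _ _ (by simpa [neg_add_eq_sub] using hw) ⟨0, round z.im, by simp⟩

theorem pm {z : ℂ} (hz : z ∈ W c) : Pm oC o Θ z := by
  rcases hz with h | h
  · exact X.pm' h
  · have h1 := X.swap.pm' (z := 0 + -I * z) (by simpa [dz_neg] using h)
    refine (h1.comp (f := fun w => 0 + -I * w) (pm_affine (neg_ne_zero.2 I_ne_zero) 0 z)).congr
      (Eventually.of_forall fun w => ?_)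
    simp only [comp_apply, zero_add, II']

theorem spec {h : Equiv.Perm ℂ} (a : Ad c₁ h) (hc : c₁ ≤ c) :
    (∀ z ∈ W c, T Θ c h (Θ z) = Θ (h z)) ∧ ∀ x ∉ Θ '' W c, T Θ c h x = x := by
  classical
  let F : Equiv.Perm ℂ → M → M := fun h x =>
    if H : ∃ z ∈ W c, Θ z = x then Θ (h H.choose) else x
  have h1 : ∀ h, Ad c₁ h → ∀ z ∈ W c, F h (Θ z) = Θ (h z) := fun h a z hz => by
    have H : ∃ w ∈ W c, Θ w = Θ z := ⟨z, hz, rfl⟩
    exact (dif_pos H).trans ((X.eq (a.maps hc H.choose_spec.1) (a.maps hc hz)).2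
      ((a.eqv _ _).1 ((X.eq H.choose_spec.1 hz).1 H.choose_spec.2)))
  have h2 : ∀ h, ∀ x ∉ Θ '' W c, F h x = x := fun h x hx => dif_neg hx
  have h3 : ∀ h, Ad c₁ h → LeftInverse (F h⁻¹) (F h) := fun h a x => by
    by_cases hx : x ∈ Θ '' W c
    · obtain ⟨z, hz, rfl⟩ := hx
      rw [h1 h a z hz, h1 _ a.inv _ (a.maps hc hz)]; simp
    · rw [h2 h x hx, h2 _ x hx]
  have hb : Bijective (F h) := ⟨(h3 h a).injective, (by simpa using h3 _ a.inv :
    LeftInverse (F h) (F h⁻¹)).surjective⟩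
  exact ⟨fun z hz => (mkP_apply hb _).trans (h1 h a z hz),
    fun x hx => (mkP_apply hb _).trans (h2 h x hx)⟩

theorem fix {h : Equiv.Perm ℂ} (a : Ad c₁ h) (hc : c₁ < c) {x : M} (hx : x ∉ Θ '' L c₁) :
    T Θ c h x = x := by
  by_cases hr : x ∈ Θ '' W c
  · obtain ⟨z, hz, rfl⟩ := hr
    rw [(X.spec a hc.le).1 z hz, eq_comm, X.eq hz (a.maps hc.le hz)]
    refine a.fix z fun h1 => ?_
    obtain ⟨w, hw, e⟩ := exists_L h1
    exact hx ⟨w, hw, ((X.eq hz (L_sub hc hw)).2 e).symm⟩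
  · exact (X.spec a hc.le).2 x hr

theorem closed (hc : c₁ < c) : IsClosed (Θ '' L c₁) :=
  ((isCompact_L c₁).image_of_continuousOn fun _ hz =>
    (X.pm (L_sub hc hz)).1.contMDiffAt.continuousAt.continuousWithinAt).isClosed

theorem near {h : Equiv.Perm ℂ} (a : Ad c₁ h) (hc : c₁ < c) : Near (T Θ c h) Uᶜ :=
  near_of_closed (X.closed hc) (disjoint_compl_right_iff_subset.2 (by
    rintro _ ⟨z, hz, rfl⟩; exact X.sub (L_sub hc hz))) fun _ hx => X.fix a hc hx

theorem mem {h : Equiv.Perm ℂ} (a : Ad c₁ h) (hc : c₁ < c) (hh : h ∈ G oC) : T Θ c h ∈ G o := by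
  intro x
  by_cases hx : x ∈ Θ '' W c
  · obtain ⟨z, hz, rfl⟩ := hx
    refine (X.pm hz).of_comp (((X.pm (a.maps hc.le hz)).comp (hh z)).congr ?_)
    filter_upwards [(isOpen_W c).mem_nhds hz] with w hw using (X.spec a hc.le).1 w hw
  · refine (pm_id o x).congr ?_
    filter_upwards [(X.closed hc).isOpen_compl.mem_nhds fun h => hx (image_mono (L_sub hc) h)]
      with y hy using X.fix a hc hy

theorem sm {κ : ℝ → Equiv.Perm ℂ} (hκ : ContDiff ℝ ∞ fun p : ℝ × ℂ => κ p.1 p.2)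
    (a : ∀ t, Ad c₁ (κ t)) (hc : c₁ < c) :
    ContMDiff (IR.prod IC) IC ∞ fun p : ℝ × M => T Θ c (κ p.1) p.2 := by
  rintro ⟨t, x⟩
  by_cases hx : x ∈ Θ '' W c
  · obtain ⟨z, hz, rfl⟩ := hx
    have h1 : IsLocalDiffeomorphAt (IR.prod IC) (IR.prod IC) ∞ (Prod.map id Θ) (t, z) :=
      Glue52.ld_prodMap_at ((Diffeomorph.refl IR ℝ ∞).isLocalDiffeomorph t) (X.pm hz).1
    refine Cyl58.contMDiffAt_of_comp h1 ?_
    refine ((X.pm ((a t).maps hc.le hz)).1.contMDiffAt.comp (f := fun p : ℝ × ℂ => κ p.1 p.2)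
      (t, z) (cm_of_cd hκ (t, z))).congr_of_eventuallyEq ?_
    filter_upwards [continuous_snd.continuousAt.eventually ((isOpen_W c).mem_nhds hz)] with p hp
    exact (X.spec (a p.1) hc.le).1 _ hp
  · refine contMDiffAt_snd.congr_of_eventuallyEq ?_
    filter_upwards [continuous_snd.continuousAt.eventually ((X.closed hc).isOpen_compl.mem_nhds
      fun h => hx (image_mono (L_sub hc) h))] with p hp
    exact X.fix (a p.1) hc hp

/-- the core of `A` does not separate -/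
theorem ns (hM : IsPreconnected (univ : Set M)) : NS A := by
  have cA := cont_of_pm X.hA.1
  have p := X.pos
  have q := X.hi
  have hS : IsPreconnected (A '' {z | 0 < z.im} ∪ (fun t : ℝ => B t) '' Ioo 0 1 ∪
      A '' {z | z.im < 0}) := by
    have h2 : IsPreconnected ((fun t : ℝ => B t) '' Ioo 0 1) :=
      isPreconnected_Ioo.image _ ((cont_of_pm X.hB.1).comp continuous_ofReal).continuousOn
    have e : ∀ (t s : ℝ), |s| < c → La (I * s) (I * t) → A (I * s) = B t := fun t s hs h => by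
      rw [← X.a _ _ (by simpa using hs) h, X.b t _ (by simpa using p) (La.refl _)]
    refine IsPreconnected.union (B (1 - c / 2 : ℝ)) (Or.inr ⟨_, ⟨by linarith, by linarith⟩, rfl⟩)
      ⟨I * (-(c / 2) : ℝ), by simpa using p, e _ _ (abs_lt.2 ⟨by linarith, by linarith⟩)
        ⟨0, 1, by push_cast; ring⟩⟩
      (IsPreconnected.union (B (c / 2 : ℝ)) ⟨I * (c / 2 : ℝ), by simpa using p,
        e _ _ (abs_lt.2 ⟨by linarith, by linarith⟩) (La.refl _)⟩
        ⟨_, ⟨by linarith, by linarith⟩, rfl⟩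
        ((convex_halfSpace_im_gt 0).isPreconnected.image _ cA.continuousOn) h2)
      ((convex_halfSpace_im_lt 0).isPreconnected.image _ cA.continuousOn)
  set S := A '' {z | 0 < z.im} ∪ (fun t : ℝ => B t) '' Ioo 0 1 ∪ A '' {z | z.im < 0}
  have hSZ : S ⊆ (core A)ᶜ := by
    rintro _ ((⟨z, hz, rfl⟩ | ⟨t, ht, rfl⟩) | ⟨z, hz, rfl⟩) h
    · exact (ne_of_gt hz) (X.hA.mem_core.1 h)
    · obtain ⟨s, hs⟩ := h
      obtain ⟨m, n, e⟩ := X.only s t (by simpa using p) (by simpa using p) hs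
      have h1 : t = n := by simpa using congrArg im e
      obtain ⟨h2, h3⟩ := ht
      rw [h1] at h2 h3
      have h4 : 0 < n := by exact_mod_cast h2
      have h5 : n < 1 := by exact_mod_cast h3
      omega
    · exact (ne_of_lt hz) (X.hA.mem_core.1 h)
  have hV : ∀ z, A z ∉ core A → A z ∈ S := fun z hz => by
    rcases lt_trichotomy z.im 0 with h | h | h
    exacts [Or.inr ⟨z, h, rfl⟩, (hz (mem_core h)).elim, Or.inl (Or.inl ⟨z, h, rfl⟩)]
  have hO : IsOpen (core A)ᶜ := X.hA.isCompact_core.isClosed.isOpen_compl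
  have hR : IsOpen (range A) := (isOpenMap_of_pm X.hA.1).isOpen_range
  have key : ∀ u v : Set M, IsOpen u → IsOpen v → (core A)ᶜ ⊆ u ∪ v → (core A)ᶜ ∩ (u ∩ v) = ∅ →
      S ⊆ u → (core A)ᶜ ⊆ u := fun u v hu hv h1 h2 h3 x hx => by
    by_contra hn
    obtain ⟨y, -, y1, y2, y3⟩ := hM (u ∩ (core A)ᶜ ∪ range A) (v ∩ (core A)ᶜ)
      ((hu.inter hO).union hR) (hv.inter hO) (fun y _ => by
        by_cases hy : y ∈ core A
        · exact Or.inl (Or.inr (core_subset A hy))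
        · exact (h1 hy).imp (fun a => Or.inl ⟨a, hy⟩) fun a => ⟨a, hy⟩)
      ⟨A 0, trivial, Or.inr ⟨0, rfl⟩⟩ ⟨x, trivial, (h1 hx).resolve_left hn, hx⟩
    refine (h2.subset ⟨y3, ?_, y2⟩ : y ∈ (∅ : Set M))
    rcases y1 with y1 | ⟨z, rfl⟩
    exacts [y1.1, h3 (hV z y3)]
  refine isPreconnected_iff_subset_of_disjoint.2 fun u v hu hv h1 h2 => ?_
  refine (isPreconnected_iff_subset_of_disjoint.1 hS u v hu hv (hSZ.trans h1)
    (eq_empty_of_subset_empty ((inter_subset_inter_left _ hSZ).trans h2.subset))).imp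
    (key u v hu hv h1 h2) (key v u hv hu (by rwa [union_comm]) (by rwa [inter_comm v]))

/-- the transplanted shear is a twist up to isotopy -/
theorem mem_K (hM : IsPreconnected (univ : Set M)) {h : ℝ → Equiv.Perm ℂ} {l : ℝ → ℝ}
    (s : Shr c₁ h l) (hc : c₁ < c) (tw : TW o) : T Θ c (h 1) ∈ K o := by
  have hm : ∀ t, T Θ c (h t) ∈ G o := fun t => X.mem (s.ad t) hc (s.mem t)
  have li : ∀ r, c₁ ≤ |r| → ∃ n : ℤ, l r = n := fun r hr =>
    (le_abs'.1 hr).elim (fun a => ⟨0, by simp [s.l0 r a]⟩) fun a => ⟨1, by simp [s.l1 r a]⟩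
  have out : ∀ x, (∀ z : ℂ, |z.im| < c → A z ≠ x) → T Θ c (h 0) x = x := fun x hx => by
    by_cases hr : x ∈ Θ '' W c
    · obtain ⟨z, hz, rfl⟩ := hr
      rw [(X.spec (s.ad 0) hc.le).1 z hz, eq_comm, X.eq hz ((s.ad 0).maps hc.le hz)]
      have h1 : c ≤ dz z.im := not_lt.1 fun a => hx (z - round z.im * I) (by simpa [dz] using a)
        (X.a _ _ (by simpa [dz] using a) ⟨0, round z.im, by simp⟩).symm
      obtain ⟨n, e⟩ := li _ (hc.le.trans h1)
      exact ⟨round z.im + n, 0, by rw [s.zero, e]; simp; ring⟩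
    · exact (X.spec (s.ad 0) hc.le).2 x hr
  have e : tr A (sh l) = T Θ c (h 0) := by
    refine (X.hA.wd_sh l).ext (fun z => ?_) fun x hx => out x fun z _ e => hx ⟨z, e⟩
    by_cases hz : |z.im| < c
    · rw [← X.a z z hz (La.refl _), (X.spec (s.ad 0) hc.le).1 z (Or.inl ((dz_le_abs _).trans_lt hz)),
        s.zero, round_of_abs (hz.trans X.hi)]
      exact X.a _ _ (by simpa using hz) ⟨0, 0, by simp⟩
    · obtain ⟨n, e⟩ := li _ (hc.le.trans (not_lt.1 hz))
      rw [out _ fun w hw e => hz (X.hA.im_eq e ▸ hw), sh_apply, e, ofReal_intCast, X.hA.per]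
  rw [← cls_eq_one (hm 1), cls_path (X.sm s.cd s.ad hc) hm 1 0, ← e,
    X.hA.cls_sh s.lcd (a := -c₁) (b := c₁) (m := 0) (n := 1) (fun r hr => by simp [s.l0 r hr.le])
      (fun r hr => by simp [s.l1 r hr.le]), cls_K (tw A X.hA (X.ns hM)), one_zpow]

/-- the quarter turn in the stretched charts -/
theorem turn (hM : IsPreconnected (univ : Set M)) {h : ℝ → Equiv.Perm ℂ} {l : ℝ → ℝ}
    (s : Shr c₁ h l) (hc : c₁ < c) : ∃ k ∈ G o, Near k Uᶜ ∧ (TW o → k ∈ K o) ∧
      ∀ z : ℂ, |z.im| < 1 / 8 → k (A z) = B z ∧ k (B z) = A (-z) := by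
  have a := s.ad 1
  have lo := s.lo
  set k₁ := T Θ c (h 1)
  set k₂ := T (fun z => Θ (I * z)) c (h 1)
  have key : ∀ z : ℂ, dz z.im < 1 / 8 ∨ dz z.re < 1 / 8 → (k₁ * k₂ * k₁) (Θ z) = Θ (-I * z) := by
    intro z hz
    have w0 : z ∈ W c := W_mono (by linarith) hz
    have e1 : h 1 z = z + z.im + 1 / 2 := s.one z (hz.elim (fun a => Or.inr (by linarith))
      fun a => Or.inl (by linarith))
    have w1 : -I * h 1 z ∈ W c := W_rot.1 (by rw [II']; exact a.maps hc.le w0)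
    have r1 : (h 1 z).re = z.re + z.im + 1 / 2 := by simp [e1]
    have i1 : (h 1 z).im = z.im := by simp [e1]
    have t1 : dz (z.re + z.im + 1 / 2) ≤ 1 / 2 - dz z.im + dz z.re := by
      have := dz_add (z.im + 1 / 2) z.re
      rw [show z.im + 1 / 2 + z.re = z.re + z.im + 1 / 2 by ring] at this
      linarith [dz_half z.im]
    have t2 : dz (z.re + z.im + 1 / 2) ≤ 1 / 2 - dz z.re + dz z.im := by
      have := dz_add (z.re + 1 / 2) z.im
      rw [add_right_comm] at this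
      linarith [dz_half z.re]
    have e2 : I * h 1 (-I * h 1 z) = ⟨z.re + z.im + 1 / 2, -z.re⟩ := by
      rw [s.one _ ?_]
      · exact Complex.ext (by simp [r1]) (by simp [r1, i1]; ring)
      · simp only [neg_mul, neg_re, mul_re, I_re, I_im, neg_im, mul_im, zero_mul, one_mul, zero_sub,
          neg_neg, zero_add, dz_neg, r1, i1]
        by_cases h1 : dz z.im ≤ 1 / 4
        · exact Or.inl h1
        · exact Or.inr (by rcases hz with h2 | h2 <;> linarith)
    have w2 : I * h 1 (-I * h 1 z) ∈ W c := W_rot.2 (a.maps hc.le w1)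
    have e3 : h 1 (I * h 1 (-I * h 1 z)) = -I * z + 1 := by
      rw [e2, s.one _ ?_]
      · exact Complex.ext (by simp; ring) (by simp)
      · simp only [dz_neg]
        by_cases h1 : dz z.re ≤ 3 / 8
        · exact Or.inr h1
        · exact Or.inl (by rcases hz with h2 | h2 <;> linarith)
    have s2 := (X.swap.spec a hc.le).1 _ w1
    rw [II'] at s2
    show k₁ (k₂ (k₁ (Θ z))) = _
    rw [(X.spec a hc.le).1 z w0, s2, (X.spec a hc.le).1 _ w2, X.eq (a.maps hc.le w2)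
      (W_rot.1 (by rw [II']; exact w0)), e3]
    exact ⟨-1, 0, by simp⟩
  have m1 := X.mem a hc (s.mem 1)
  have m2 := X.swap.mem a hc (s.mem 1)
  refine ⟨(k₁ * k₂ * k₁)⁻¹, inv_mem (mul_mem (mul_mem m1 m2) m1),
    (((X.near a hc).mul (X.swap.near a hc)).mul (X.near a hc)).inv, fun tw => inv_mem (mul_mem
      (mul_mem (X.mem_K hM s hc tw) (X.swap.mem_K hM s hc tw)) (X.mem_K hM s hc tw)),
    fun z hz => ?_⟩
  have hz' : |z.im| < c := by linarith
  have d := (dz_le_abs _).trans_lt hz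
  rw [Equiv.Perm.inv_eq_iff_eq, Equiv.Perm.inv_eq_iff_eq, ← X.b z _ hz' (La.refl _),
    ← X.a z _ hz' (La.refl _), ← X.a (-z) _ (by simpa using hz') (La.refl _),
    key (I * z) (Or.inr (by simpa [dz_neg] using d)), key (-z) (Or.inl (by simpa [dz_neg] using d))]
  simp [II]

end Tc

/-- the chart of the punctured torus -/
theorem exists_tc (hA : An o A) (hB : An o B) (rA : range A ⊆ U) (rB : range B ⊆ U) (p : 0 < c)
    (q : c < 1 / 2) (box : ∀ z : ℂ, |z.re| < c → |z.im| < c → B z = A (I * z))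
    (only : ∀ z w : ℂ, |z.im| < c → |w.im| < c → A z = B w → La z (I * w)) :
    ∃ Θ, Tc o U c A B Θ := by
  refine ⟨fun z => if dz z.im < c then A (z - round z.im * I) else B (-I * (z - round z.re)),
    hA, hB, rA, rB, p, q, only, ?_, ?_⟩
  · rintro z _ hz ⟨m, n, rfl⟩
    have h1 : (z + m + n * I).im = z.im + n := by simp
    rw [h1, dz_add_int, if_pos ((dz_le_abs _).trans_lt hz), round_add_intCast,
      round_of_abs (hz.trans q), ← hA.per z m]
    congr 1; push_cast; ring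
  · rintro z _ hz ⟨m, n, rfl⟩
    have h1 : (I * z + m + n * I).im = z.re + n := by simp
    have h2 : (I * z + m + n * I).re = -z.im + m := by simp
    rw [h1, h2, dz_add_int, round_add_intCast, round_add_intCast,
      round_of_abs (x := -z.im) (by rw [abs_neg]; exact hz.trans q)]
    split_ifs with h
    · rw [← hB.per z (-round z.re), box _ (by simpa [dz, sub_eq_add_neg] using h)
        (by simpa using hz), ← hA.per (I * _) m]
      congr 1; push_cast; ring
    · rw [← hB.per z n]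
      congr 1; push_cast; linear_combination (-z - n) * I_mul_I

/-- PLUMB -/
theorem plumb : Plumb := by
  intro X U A B δ hM N
  obtain ⟨c₁, h, l, s⟩ := exists_shr
  have lo := s.lo
  have hi := s.hi
  obtain ⟨c, c1, c2⟩ := exists_between hi
  have c0 : 0 < c := by linarith
  obtain ⟨a, a0, a1, a2⟩ : ∃ a : ℝ, 0 < a ∧ a ≤ 1 ∧ a ≤ δ :=
    ⟨min 1 δ, lt_min one_pos N.pos, min_le_left _ _, min_le_right _ _⟩
  obtain ⟨Φ, P1, P2, P3, P4, P5⟩ := exists_Phi c0 c2 a0 a1
  have P6 : ∀ z, ∀ n : ℤ, Φ (z + n) = Φ z + n := fun z n => by simpa using P2 z n 0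
  have an : ∀ D, An X.o D → An X.o (D ∘ Φ) := fun D hD => ⟨fun z => (hD.1 _).comp (P1 z),
    fun z w => (hD.wd P6 z w).symm.trans (hD.2 z w)⟩
  have sm : ∀ z : ℂ, |z.im| < c → |(Φ z).im| < δ := fun z hz => by
    rw [P4 z hz.le, abs_mul, abs_of_pos a0]
    nlinarith [abs_nonneg z.im]
  have box : ∀ z : ℂ, |z.re| < δ → |z.im| < δ → B z = A (I * z) := fun z h1 h2 => by
    simpa using N.box 0 z h1 h2
  obtain ⟨Θ, Y⟩ := exists_tc (an A N.hA) (an B N.hB) ((range_comp_subset_range _ _).trans N.rA)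
    ((range_comp_subset_range _ _).trans N.rB) c0 c2 (fun z h1 h2 => by
      have := sm (I * z) (by simpa using h1)
      rw [P3] at this
      rw [comp_apply, comp_apply, P3, box _ (by simpa using this) (sm z h2)])
    fun z w hz hw e => by
      obtain ⟨-, m, hm⟩ := N.only _ _ (sm z hz) (sm w hw) e
      rw [comp_apply, comp_apply, ← N.hB.per (Φ w) (-m),
        box _ (by simpa [sub_eq_add_neg] using hm) (by simpa using sm w hw), N.hA.2] at e
      obtain ⟨n, e⟩ := e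
      exact ⟨n, m, Φ.injective (by rw [P3, P2]; push_cast at e; linear_combination e)⟩
  obtain ⟨k, k1, k2, k3, k4⟩ := Y.turn hM s c1
  refine ⟨k, k1, k2, k3, a * (1 / 8), by positivity, fun z hz => ?_⟩
  obtain ⟨w, rfl⟩ := Φ.surjective z
  have := k4 w (P5 w _ (by norm_num) (by linarith) hz)
  rwa [comp_apply, comp_apply, comp_apply, ← II, P3, P3, II] at this

end Crest.Agent.X212.Plb19
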