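import Crest.Agent.X212.Prf6.Tr

/-!
# Row 212, PERF-PLUMB (helper19): the model torus `ℂ / ℤ[i]`

Periodic plateau functions, the stretch `Φ` and the shear `h t` that is the identity near the
punctures `(1 + i) / 2 + ℤ[i]`.
-/

set_option autoImplicit false
set_option linter.unusedSectionVars false
noncomputable section
open Set Filter Topology Function Complex
open scoped ContDiff Manifold

namespace Crest.Agent.X212.Plb19
open Prf6

/-- distance to the integers -/
def dz (x : ℝ) : ℝ := |x - round x|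

theorem dz_le (x : ℝ) (n : ℤ) : dz x ≤ |x - n| := round_le x n

theorem dz_le_abs (x : ℝ) : dz x ≤ |x| := by simpa using dz_le x 0

theorem dz_add_int (x : ℝ) (n : ℤ) : dz (x + n) = dz x := by
  simp only [dz, round_add_intCast]; congr 1; push_cast; ring

theorem dz_neg (x : ℝ) : dz (-x) = dz x := by
  have h : ∀ y : ℝ, dz (-y) ≤ dz y := fun y => (dz_le (-y) (-round y)).trans_eq (by
    rw [dz, ← abs_neg]; congr 1; push_cast; ring)
  exact le_antisymm (h x) (by simpa using h (-x))

theorem dz_add (x y : ℝ) : dz (x + y) ≤ dz x + dz y :=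
  (dz_le (x + y) (round x + round y)).trans ((le_of_eq (by congr 1; push_cast; ring)).trans
    (abs_add_le (x - round x) (y - round y)))

theorem dz_half (x : ℝ) : dz (x + 1 / 2) ≤ 1 / 2 - dz x := by
  have h := abs_le.1 (abs_sub_round x)
  rcases le_total 0 (x - round x) with h1 | h1
  · refine (dz_le _ (round x + 1)).trans ?_
    rw [dz, abs_of_nonneg h1, abs_le]; push_cast; constructor <;> linarith
  · refine (dz_le _ (round x)).trans ?_
    rw [dz, abs_of_nonpos h1, abs_le]; constructor <;> linarith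

theorem dz_cont : Continuous dz := by
  refine (LipschitzWith.of_le_add (f := dz) fun x y => ?_).continuous
  have h1 := dz_add y (x - y)
  have h2 := dz_le_abs (x - y)
  rw [add_sub_cancel] at h1
  rw [Real.dist_eq]; linarith

theorem round_of_abs {x : ℝ} (h : |x| < 1 / 2) : round x = 0 :=
  round_eq_zero_iff.2 ⟨(abs_lt.1 h).1.le, (abs_lt.1 h).2⟩

/-- periodisation -/
def pr (F : ℝ → ℝ) (x : ℝ) : ℝ := F (x - round x)

theorem pr_add_int (F : ℝ → ℝ) (x : ℝ) (n : ℤ) : pr F (x + n) = pr F x := by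
  simp only [pr, round_add_intCast]; congr 1; push_cast; ring

theorem pr_cd {F : ℝ → ℝ} (hF : ContDiff ℝ ∞ F) {e : ℝ} (he : 0 < e)
    (h : ∀ s, |s + 1 / 2| < e → F (s + 1) = F s) : ContDiff ℝ ∞ (pr F) := by
  refine contDiff_iff_contDiffAt.2 fun x => ?_
  have h0 := round_eq_iff.1 (rfl : round x = round x)
  refine (hF.comp (contDiff_id.sub
    (contDiff_const (c := (round x : ℝ))))).contDiffAt.congr_of_eventuallyEq ?_
  have h1 : ∀ᶠ y : ℝ in 𝓝 x, y < round x + 1 / 2 := gt_mem_nhds h0.2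
  have h2 : ∀ᶠ y in 𝓝 x, x - min e 1 < y := lt_mem_nhds (by simp [he])
  filter_upwards [h1, h2] with y h1 h2
  have h3 := min_le_left e 1
  have h4 := min_le_right e 1
  by_cases h5 : round x - 1 / 2 ≤ y
  · simp only [pr, comp_apply, id, round_eq_iff.2 ⟨h5, h1⟩]
  · have h6 : round y = round x - 1 := round_eq_iff.2 (by
      push_cast; constructor <;> linarith [h0.1])
    simp only [pr, comp_apply, id, h6]
    rw [← h (y - round x) (abs_lt.2 ⟨by linarith [h0.1], by linarith⟩)]
    congr 1; push_cast; ring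

/-- smooth step from `0` at `a` to `1` at `b` -/
def stp (a b s : ℝ) : ℝ := Real.smoothTransition ((s - a) / (b - a))

theorem stp_cd (a b : ℝ) : ContDiff ℝ ∞ (stp a b) :=
  Real.smoothTransition.contDiff.comp ((contDiff_id.sub contDiff_const).div_const _)

theorem stp_zero {a b s : ℝ} (h : a < b) (hs : s ≤ a) : stp a b s = 0 :=
  Real.smoothTransition.zero_of_nonpos (div_nonpos_of_nonpos_of_nonneg (by linarith) (by linarith))

theorem stp_one {a b s : ℝ} (h : a < b) (hs : b ≤ s) : stp a b s = 1 :=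
  Real.smoothTransition.one_of_one_le ((one_le_div (by linarith)).2 (by linarith))

theorem stp_nonneg (a b s : ℝ) : 0 ≤ stp a b s := Real.smoothTransition.nonneg _

theorem stp_le (a b s : ℝ) : stp a b s ≤ 1 := Real.smoothTransition.le_one _

theorem stp_mono {a b : ℝ} (h : a < b) : Monotone (stp a b) := fun _ _ e =>
  Real.smoothTransition.monotone (div_le_div_of_nonneg_right (by linarith) (by linarith))

/-- a smooth staircase -/
theorem exists_stair {c : ℝ} (h0 : 0 < c) (hc : c < 1 / 2) : ∃ m : ℝ → ℝ, ContDiff ℝ ∞ m ∧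
    Monotone m ∧ (∀ x, ∀ n : ℤ, m (x + n) = m x + n) ∧ ∀ x, |x| ≤ c → m x = 0 := by
  have hab : c - 1 / 2 < 1 / 2 - c := by linarith
  set σ := stp (c - 1 / 2) (1 / 2 - c)
  let G : ℝ → ℝ := fun s => σ s - s - 1 / 2
  have e : ∀ x, x + pr G (x + 1 / 2) = round (x + 1 / 2) - 1 + σ (x + 1 / 2 - round (x + 1 / 2)) :=
    fun x => by simp only [pr, G]; ring
  refine ⟨fun x => x + pr G (x + 1 / 2), contDiff_id.add ((pr_cd (F := G) (((stp_cd _ _).sub
    contDiff_id).sub contDiff_const) h0 fun s hs => ?_).comp (contDiff_id.add contDiff_const)),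
    fun x y hxy => ?_, fun x n => ?_, fun x hx => ?_⟩
  · have := abs_lt.1 hs
    simp only [G, σ]
    rw [stp_zero hab (s := s) (by linarith), stp_one hab (by linarith)]; ring
  · simp only [e]
    have h1 : round (x + 1 / 2) ≤ round (y + 1 / 2) := by
      rw [round_eq, round_eq]; exact Int.floor_mono (by linarith)
    rcases h1.eq_or_lt with h2 | h2
    · rw [h2]
      have := stp_mono hab (show x + 1 / 2 - round (y + 1 / 2) ≤ y + 1 / 2 - round (y + 1 / 2) by
        linarith)
      linarith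
    · have h3 : (round (x + 1 / 2) : ℝ) + 1 ≤ round (y + 1 / 2) := by exact_mod_cast h2
      linarith [stp_le (c - 1 / 2) (1 / 2 - c) (x + 1 / 2 - round (x + 1 / 2)),
        stp_nonneg (c - 1 / 2) (1 / 2 - c) (y + 1 / 2 - round (y + 1 / 2))]
  · show x + n + pr G (x + n + 1 / 2) = x + pr G (x + 1 / 2) + n
    rw [add_right_comm x n (1 / 2), pr_add_int]; ring
  · have := abs_le.1 hx
    simp only [e]
    rcases le_or_gt 0 x with h1 | h1
    · have h2 : round (x + 1 / 2) = 1 := round_eq_iff.2 (by push_cast; constructor <;> linarith)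
      rw [h2, show σ _ = 0 from stp_zero hab (by push_cast; linarith)]; simp
    · have h2 : round (x + 1 / 2) = 0 := round_eq_iff.2 (by push_cast; constructor <;> linarith)
      rw [h2, show σ _ = 1 from stp_one hab (by push_cast; linarith)]; simp

theorem surj_of_per {φ : ℝ → ℝ} (hc : Continuous φ) (h : ∀ x, ∀ n : ℤ, φ (x + n) = φ x + n) :
    Surjective φ := fun y => by
  refine mem_range_of_exists_le_of_exists_ge hc ⟨0 + (⌊y - φ 0⌋ : ℤ), ?_⟩ ⟨0 + (⌈y - φ 0⌉ : ℤ), ?_⟩
  · rw [h]; linarith [Int.floor_le (y - φ 0)]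
  · rw [h]; linarith [Int.le_ceil (y - φ 0)]

/-- the stretch of the line -/
theorem exists_phi {c a : ℝ} (h0 : 0 < c) (hc : c < 1 / 2) (ha : 0 < a) (ha1 : a ≤ 1) :
    ∃ φ : ℝ → ℝ, ContDiff ℝ ∞ φ ∧ (∀ x, 0 < deriv φ x) ∧ (∀ x, φ (-x) = -φ x) ∧
      (∀ x, ∀ n : ℤ, φ (x + n) = φ x + n) ∧ ∀ x, |x| ≤ c → φ x = a * x := by
  obtain ⟨m, m1, m2, m3, m4⟩ := exists_stair h0 hc
  let μ : ℝ → ℝ := fun x => (m x - m (-x)) / 2
  have μ1 : ContDiff ℝ ∞ μ := (m1.sub (m1.comp contDiff_neg)).div_const _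
  have μ2 : Monotone μ := fun x y h => by
    have := m2 h
    have := m2 (neg_le_neg h)
    simp only [μ]; linarith
  refine ⟨fun x => a * x + (1 - a) * μ x, (contDiff_const.mul contDiff_id).add
    (contDiff_const.mul μ1), fun x => ?_, fun x => by simp only [μ, neg_neg]; ring, fun x n => ?_,
    fun x hx => ?_⟩
  · have h := ((hasDerivAt_id x).const_mul a).add
      ((μ1.differentiable (by simp) x).hasDerivAt.const_mul (1 - a))
    erw [h.deriv]
    have := mul_nonneg (sub_nonneg.2 ha1) (μ2.deriv_nonneg (x := x))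
    linarith
  · have := m3 (-x) (-n)
    simp only [μ, m3, show -(x + n) = -x + ((-n : ℤ) : ℝ) by push_cast; ring]
    push_cast; ring
  · simp [μ, m4 x hx, m4 (-x) (by rwa [abs_neg])]

/-- the stretch of the plane -/
theorem exists_Phi {c a : ℝ} (h0 : 0 < c) (hc : c < 1 / 2) (ha : 0 < a) (ha1 : a ≤ 1) :
    ∃ Φ ∈ G oC, (∀ z, ∀ m n : ℤ, Φ (z + m + n * I) = Φ z + m + n * I) ∧
      (∀ z, Φ (I * z) = I * Φ z) ∧ (∀ z, |z.im| ≤ c → (Φ z).im = a * z.im) ∧
      ∀ z r, 0 ≤ r → r ≤ c → |(Φ z).im| < a * r → |z.im| < r := by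
  obtain ⟨φ, p1, p2, p3, p4, p5⟩ := exists_phi h0 hc ha ha1
  have hm := strictMono_of_deriv_pos p2
  have hb : Bijective φ := ⟨hm.injective, surj_of_per p1.continuous p4⟩
  let F : ℂ → ℂ := fun z => φ z.re + φ z.im * I
  have Fre : ∀ z, (F z).re = φ z.re := fun z => by simp [F]
  have Fim : ∀ z, (F z).im = φ z.im := fun z => by simp [F]
  have hF : Bijective F := by
    refine ⟨fun z w h => Complex.ext (hb.1 ?_) (hb.1 ?_), fun w => ?_⟩
    · rw [← Fre, h, Fre]
    · rw [← Fim, h, Fim]
    · obtain ⟨x, hx⟩ := hb.2 w.re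
      obtain ⟨y, hy⟩ := hb.2 w.im
      exact ⟨⟨x, y⟩, Complex.ext (by rw [Fre, hx]) (by rw [Fim, hy])⟩
  have e : ∀ z, mkP F z = F z := mkP_apply hF
  refine ⟨mkP F, fun z => ?_, fun z m n => ?_, fun z => ?_, fun z hz => ?_, fun z r r0 rc h => ?_⟩
  · rw [show (mkP F : ℂ → ℂ) = F from funext e]
    have c1 : ContDiff ℝ ∞ F := (ofRealCLM.contDiff.comp (p1.comp reCLM.contDiff)).add
      ((ofRealCLM.contDiff.comp (p1.comp imCLM.contDiff)).mul contDiff_const)
    refine pm_C isOpen_univ (mem_univ z) c1.contDiffOn ?_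
    have d : ∀ x, HasDerivAt φ (deriv φ x) x := fun x => (p1.differentiable (by simp) x).hasDerivAt
    have d1 := (ofRealCLM.hasFDerivAt.comp z ((d z.re).comp_hasFDerivAt z reCLM.hasFDerivAt)).add
      ((ofRealCLM.hasFDerivAt.comp z ((d z.im).comp_hasFDerivAt z imCLM.hasFDerivAt)).mul_const I)
    erw [d1.fderiv, det_C]
    simpa using mul_pos (p2 z.re) (p2 z.im)
  · rw [e, e]
    exact Complex.ext (by simp [Fre, p4]) (by simp [Fim, p4])
  · rw [e, e]
    exact Complex.ext (by simp [Fre, Fim, p3]) (by simp [Fre, Fim])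
  · rw [e, Fim, p5 _ hz]
  · rw [e, Fim, abs_lt] at h
    have h1 := p5 r (by rwa [abs_of_nonneg r0])
    exact abs_lt.2 ⟨hm.lt_iff_lt.1 (by rw [p3, h1]; exact h.1), hm.lt_iff_lt.1 (by rw [h1]; exact h.2)⟩

/-- horizontal maps -/
theorem pm_hz {f : ℂ → ℝ} (hf : ContDiff ℝ ∞ f) {z : ℂ} {d : ℝ}
    (hd : HasDerivAt (fun x : ℝ => f (z + x)) d 0) (h : 0 < 1 + d) :
    Pm oC oC (fun w => w + f w) z := by
  refine pm_C isOpen_univ (mem_univ z) (contDiff_id.add (ofRealCLM.contDiff.comp hf)).contDiffOn ?_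
  have d0 := (hf.differentiable (by simp) z).hasFDerivAt
  have d1 := (hasFDerivAt_id z).add (ofRealCLM.hasFDerivAt.comp z d0)
  have d2 : HasDerivAt (fun x : ℝ => f (z + x)) (fderiv ℝ f z 1) 0 := by
    refine HasFDerivAt.comp_hasDerivAt (l := f) (f := fun x : ℝ => z + x) 0 (by simpa using d0) ?_
    simpa using (ofRealCLM.hasDerivAt (x := 0)).const_add z
  erw [d1.fderiv, det_C]
  simpa [d2.unique hd] using h

/-- the data of the shear -/
structure Shr (c : ℝ) (h : ℝ → Equiv.Perm ℂ) (l : ℝ → ℝ) : Prop where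
  lo : 3 / 8 ≤ c
  hi : c < 1 / 2
  cd : ContDiff ℝ ∞ fun p : ℝ × ℂ => h p.1 p.2
  mem : ∀ t, h t ∈ G oC
  per : ∀ t z, ∀ m n : ℤ, h t (z + m + n * I) = h t z + (m + n : ℤ) + n * I
  fix : ∀ t z, c ≤ dz z.re → c ≤ dz z.im → ∃ n : ℤ, h t z = z + n
  lcd : ContDiff ℝ ∞ l
  l0 : ∀ r ≤ -c, l r = 0
  l1 : ∀ r ≥ c, l r = 1
  zero : ∀ z, h 0 z = z + (round z.im : ℤ) + l (z.im - round z.im)
  one : ∀ z, dz z.re ≤ 1 / 4 ∨ dz z.im ≤ 3 / 8 → h 1 z = z + z.im + 1 / 2

theorem exists_shr : ∃ c h l, Shr c h l := by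
  have hq : (1 / 4 : ℝ) < 3 / 8 := by norm_num
  let Q : ℝ → ℝ := fun s => stp (1 / 4) (3 / 8) s + stp (1 / 4) (3 / 8) (-s)
  have P1 : ContDiff ℝ ∞ (pr Q) := pr_cd ((stp_cd _ _).add ((stp_cd _ _).comp contDiff_neg))
    (e := 1 / 8) (by norm_num) fun s hs => by
      have := abs_lt.1 hs
      simp only [Q]
      rw [stp_one hq (s := s + 1) (by linarith), stp_zero hq (s := -(s + 1)) (by linarith),
        stp_zero hq (s := s) (by linarith), stp_one hq (s := -s) (by linarith), add_comm]
  have P2 : ∀ x, dz x ≤ 1 / 4 → pr Q x = 0 := fun x hx => by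
    have := abs_le.1 hx
    simp only [pr, Q]
    rw [stp_zero hq (by linarith), stp_zero hq (by linarith), add_zero]
  have P3 : ∀ x, 3 / 8 ≤ dz x → pr Q x = 1 := fun x hx => by
    simp only [pr, Q]
    rcases le_abs'.1 hx with h | h
    · rw [stp_zero hq (by linarith), stp_one hq (by linarith), zero_add]
    · rw [stp_one hq (by linarith), stp_zero hq (by linarith), add_zero]
  set P := pr Q
  obtain ⟨C, C0, hC⟩ : ∃ C, 0 < C ∧ ∀ x, |deriv P x| ≤ C := by
    have hp : Periodic (deriv P) 1 := fun x => by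
      rw [← deriv_comp_add_const]
      congr 1; ext y; exact_mod_cast pr_add_int Q y 1
    obtain ⟨C, C0, hC⟩ := (hp.isBounded_of_continuous one_ne_zero
      (P1.continuous_deriv (by simp))).exists_pos_norm_le
    exact ⟨C, C0, fun x => hC _ ⟨x, rfl⟩⟩
  obtain ⟨η, η0, η1, η2⟩ : ∃ η : ℝ, 0 < η ∧ η ≤ 1 / 8 ∧ η * C < 1 :=
    ⟨min (1 / 8) (1 / (C + 1)), by positivity, min_le_left _ _,
      (mul_le_mul_of_nonneg_right (min_le_right _ _) C0.le).trans_lt (by
        rw [div_mul_eq_mul_div, div_lt_one (by linarith)]; linarith)⟩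
  have hb : 1 / 2 - η < 1 / 2 - η / 2 := by linarith
  set b := stp (1 / 2 - η) (1 / 2 - η / 2)
  let F : ℝ → ℝ := fun s => (s + 1 / 2) * b (-s) + (s - 1 / 2) * b s
  have F1 : ContDiff ℝ ∞ F := ((contDiff_id.add contDiff_const).mul
    ((stp_cd _ _).comp contDiff_neg)).add ((contDiff_id.sub contDiff_const).mul (stp_cd _ _))
  have F2 : ∀ s ≤ -(1 / 2 - η / 2), F s = s + 1 / 2 := fun s hs => by
    simp only [F, b]
    rw [stp_one hb (by linarith), stp_zero hb (by linarith)]; ring
  have F3 : ∀ s ≥ 1 / 2 - η / 2, F s = s - 1 / 2 := fun s hs => by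
    simp only [F, b]
    rw [stp_zero hb (by linarith), stp_one hb (by linarith)]; ring
  have F4 : ∀ s, |s| ≤ 1 / 2 - η → F s = 0 := fun s hs => by
    have := abs_le.1 hs
    simp only [F, b]
    rw [stp_zero hb (by linarith), stp_zero hb (by linarith)]; ring
  have L1 : ContDiff ℝ ∞ (pr F) := pr_cd F1 (half_pos η0) fun s hs => by
    have := abs_lt.1 hs
    rw [F3 _ (by linarith), F2 _ (by linarith)]; ring
  have L2 : ∀ y, |pr F y| ≤ η := fun y => by
    have h1 := abs_le.1 (abs_sub_round y)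
    rw [pr]
    set s := y - round y
    by_cases h : |s| ≤ 1 / 2 - η
    · rw [F4 s h, abs_zero]; exact η0.le
    · simp only [F, b]
      rcases lt_abs.1 (not_le.1 h) with h | h
      · rw [stp_zero hb (by linarith), mul_zero, zero_add, abs_mul, abs_of_nonneg (stp_nonneg ..)]
        exact (mul_le_of_le_one_right (abs_nonneg _) (stp_le ..)).trans
          (abs_le.2 ⟨by linarith, by linarith⟩)
      · rw [stp_zero hb (s := s) (by linarith), mul_zero, add_zero, abs_mul,
          abs_of_nonneg (stp_nonneg ..)]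
        exact (mul_le_of_le_one_right (abs_nonneg _) (stp_le ..)).trans
          (abs_le.2 ⟨by linarith, by linarith⟩)
  set τ := Real.smoothTransition
  let f : ℝ → ℂ → ℝ := fun t z => z.im + 1 / 2 - pr F z.im * (1 - τ t * (1 - P z.re))
  have f1 : ContDiff ℝ ∞ fun p : ℝ × ℂ => f p.1 p.2 := by
    have a1 : ContDiff ℝ ∞ fun p : ℝ × ℂ => p.2.im := imCLM.contDiff.comp contDiff_snd
    have a2 : ContDiff ℝ ∞ fun p : ℝ × ℂ => p.2.re := reCLM.contDiff.comp contDiff_snd
    exact (a1.add contDiff_const).sub ((L1.comp a1).mul (contDiff_const.sub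
      ((Real.smoothTransition.contDiff.comp contDiff_fst).mul (contDiff_const.sub (P1.comp a2)))))
  have f2 : ∀ t z, HasDerivAt (fun x : ℝ => f t (z + x)) (-(pr F z.im * τ t * deriv P z.re)) 0 := by
    intro t z
    have d0 : HasDerivAt (fun x : ℝ => P (z.re + x)) (deriv P z.re) 0 :=
      HasDerivAt.comp_const_add _ _ (by simpa using (P1.differentiable (by simp) z.re).hasDerivAt)
    have d1 := ((((d0.const_sub 1).const_mul (τ t)).const_sub 1).const_mul (pr F z.im)).const_sub
      (z.im + 1 / 2)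
    refine (d1.congr_deriv (by ring)).congr_of_eventuallyEq (Eventually.of_forall fun x => ?_)
    simp [f]
  have f3 : ∀ t (z : ℂ), 0 < 1 + -(pr F z.im * τ t * deriv P z.re) := fun t z => by
    have h1 : |pr F z.im * τ t * deriv P z.re| ≤ η * 1 * C := by
      rw [abs_mul, abs_mul, abs_of_nonneg (Real.smoothTransition.nonneg t)]
      exact mul_le_mul (mul_le_mul (L2 _) (Real.smoothTransition.le_one t)
        (Real.smoothTransition.nonneg t) η0.le) (hC _) (abs_nonneg _) (by linarith)
    linarith [le_abs_self (pr F z.im * τ t * deriv P z.re)]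
  have f4 : ∀ t z, ∀ m n : ℤ, f t (z + m + n * I) = f t z + n := fun t z m n => by
    simp only [f, add_im, add_re, intCast_im, intCast_re, mul_im, mul_re, I_re, I_im, mul_zero,
      mul_one, add_zero, sub_zero, pr_add_int, P]
    ring
  have hbij : ∀ t, Bijective fun z : ℂ => z + f t z := fun t => by
    let g : ℝ → ℝ → ℝ := fun y x => x + f t (x + y * I)
    have g1 : ∀ y x, HasDerivAt (g y) (1 + -(pr F y * τ t * deriv P x)) x := fun y x => by
      have d := f2 t (x + y * I)
      have d' := HasDerivAt.comp_sub_const x x (by rw [sub_self]; exact d)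
      refine (((hasDerivAt_id x).add d').congr_deriv (by simp)).congr_of_eventuallyEq
        (Eventually.of_forall fun u => ?_)
      simp only [g, Pi.add_apply, id]; congr 2; push_cast; ring
    have g2 : ∀ y, StrictMono (g y) := fun y => strictMono_of_deriv_pos fun x => by
      rw [(g1 y x).deriv]; simpa using f3 t (x + y * I)
    have g3 : ∀ y, Surjective (g y) := fun y => surj_of_per
      (continuous_iff_continuousAt.2 fun x => (g1 y x).continuousAt) fun x n => by
        have := f4 t (x + y * I) n 0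
        simp only [g]
        rw [show ((x + n : ℝ) : ℂ) + y * I = x + y * I + n + (0 : ℤ) * I by push_cast; ring, this]
        push_cast; ring
    refine ⟨fun z w h => ?_, fun w => ?_⟩
    · have h1 : z.im = w.im := by simpa using congrArg im h
      have h2 : g z.im z.re = g z.im w.re := by
        simp only [g]
        rw [re_add_im, h1, re_add_im]
        simpa using congrArg re h
      exact Complex.ext ((g2 _).injective h2) h1
    · obtain ⟨x, hx⟩ := g3 w.im w.re
      exact ⟨x + w.im * I, Complex.ext (by simpa [g] using hx) (by simp)⟩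
  have e : ∀ t z, mkP (fun z : ℂ => z + f t z) z = z + f t z := fun t => mkP_apply (hbij t)
  refine ⟨1 / 2 - η / 2, fun t => mkP fun z : ℂ => z + f t z, fun s => s + 1 / 2 - F s, by linarith,
    by linarith, ?_, fun t z => ?_, fun t z m n => ?_, fun t z h1 h2 => ?_,
    (contDiff_id.add contDiff_const).sub F1, fun r hr => by rw [F2 r hr]; ring,
    fun r hr => by rw [F3 r hr]; ring, fun z => ?_, fun z hz => ?_⟩
  · simp only [e]
    exact contDiff_snd.add (ofRealCLM.contDiff.comp f1)
  · rw [show (mkP (fun z : ℂ => z + f t z) : ℂ → ℂ) = _ from funext (e t)]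
    exact pm_hz (f1.comp (f := fun z : ℂ => (t, z)) (by fun_prop)) (f2 t z) (f3 t z)
  · rw [e, e, f4]; push_cast; ring
  · rw [e]
    have h3 := P3 z.re (by linarith)
    rcases le_abs'.1 h2 with h | h
    · refine ⟨round z.im, ?_⟩
      have : f t z = round z.im := by simp only [f, h3, pr, F2 _ h]; ring
      rw [this]; simp
    · refine ⟨round z.im + 1, ?_⟩
      have : f t z = round z.im + 1 := by simp only [f, h3, pr, F3 _ h]; ring
      rw [this]; simp
  · rw [e]
    simp only [f, τ, Real.smoothTransition.zero, pr]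
    push_cast; ring
  · rw [e]
    have : f 1 z = z.im + 1 / 2 := by
      rcases hz with h | h
      · simp [f, τ, P2 _ h]
      · have : pr F z.im = 0 := F4 _ (le_trans h (by linarith))
        simp [f, this]
    rw [this]; push_cast; ring

end Crest.Agent.X212.Plb19
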